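import Mathlib

/-!
Tamed implies compatible on the four-torus when the almost complex structure depends on one
coordinate only.
-/

namespace Vale.Agent.Results.P204.OneCoordinateTorus

open MeasureTheory Set Matrix
open scoped ContDiff

/-- the pairing of a matrix form -/
private lemma pair_expand (W : Matrix (Fin 4) (Fin 4) ℝ) (u v : Fin 4 → ℝ) :
    u ⬝ᵥ (W *ᵥ v) = ∑ i, ∑ j, u i * v j * W i j := by
  simp only [dotProduct, mulVec, Finset.mul_sum]
  refine Finset.sum_congr rfl fun i _ => Finset.sum_congr rfl fun j _ => ?_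
  ring

/-- slice integrals of the fibre components of a closed periodic form do not depend on the slice -/
private lemma slice_const (w : (Fin 4 → ℝ) → Matrix (Fin 4) (Fin 4) ℝ)
    (hw : ∀ i j, ContDiff ℝ ∞ fun x => w x i j)
    (hclosed : ∀ x i j k, fderiv ℝ (fun y => w y j k) x (Pi.single i 1)
      + fderiv ℝ (fun y => w y k i) x (Pi.single j 1)
      + fderiv ℝ (fun y => w y i j) x (Pi.single k 1) = 0)
    (hper : ∀ x i, w (x + Pi.single i 1) = w x)
    (i j : Fin 4) (hi : i ≠ 0) (hj : j ≠ 0) (hij : i ≠ j) {s t : ℝ} (hst : s ≤ t) :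
    (∫ y in Icc (0 : Fin 3 → ℝ) 1, w (Fin.cons t y) i j) =
      ∫ y in Icc (0 : Fin 3 → ℝ) 1, w (Fin.cons s y) i j := by
  set F : Fin 4 → (Fin 4 → ℝ) → ℝ := fun m x =>
    if m = 0 then w x i j else if m = i then w x j 0 else if m = j then w x 0 i else 0 with hF
  have hFd : ∀ m, ContDiff ℝ ∞ (F m) := by
    intro m; simp only [hF]
    split_ifs <;> first | exact hw _ _ | exact contDiff_const
  set a : Fin 4 → ℝ := Fin.cons s 0 with ha
  set b : Fin 4 → ℝ := Fin.cons t 1 with hb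
  have hab : a ≤ b := fun m => by
    refine Fin.cases ?_ (fun m => ?_) m <;> simp [ha, hb, hst]
  have hdiv : ∀ x, (∑ m, fderiv ℝ (F m) x (Pi.single m 1)) = 0 := by
    intro x
    have e : ∀ m, fderiv ℝ (F m) x (Pi.single m 1) =
        (if m = 0 then fderiv ℝ (fun y => w y i j) x (Pi.single m 1) else 0) +
        (if m = i then fderiv ℝ (fun y => w y j 0) x (Pi.single m 1) else 0) +
        (if m = j then fderiv ℝ (fun y => w y 0 i) x (Pi.single m 1) else 0) := by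
      intro m; simp only [hF]
      by_cases h0 : m = 0
      · subst h0; simp [hi.symm, hj.symm]
      by_cases h1 : m = i
      · subst h1; simp [h0, hij]
      by_cases h2 : m = j
      · subst h2; simp [h0, h1]
      simp [h0, h1, h2]
    rw [Finset.sum_congr rfl fun m _ => e m, Finset.sum_add_distrib, Finset.sum_add_distrib,
      Finset.sum_ite_eq', Finset.sum_ite_eq', Finset.sum_ite_eq']
    simp only [Finset.mem_univ, if_true]
    exact hclosed x 0 i j
  have h := integral_divergence_of_hasFDerivAt_off_countable' a b hab F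
    (fun m x => fderiv ℝ (F m) x) ∅ countable_empty
    (fun m => (hFd m).continuous.continuousOn)
    (fun x _ m => (((hFd m).differentiable (by simp)) x).hasFDerivAt)
    (by simp [hdiv])
  simp only [hdiv, integral_zero] at h
  rw [Finset.sum_eq_single (0 : Fin 4) _ (fun h0 => absurd (Finset.mem_univ _) h0)] at h
  · simp only [hF, if_true, Fin.insertNth_zero', Fin.succAbove_zero] at h
    have e1 : a ∘ Fin.succ = (0 : Fin 3 → ℝ) := by funext m; simp [ha]
    have e2 : b ∘ Fin.succ = (1 : Fin 3 → ℝ) := by funext m; simp [hb]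
    rw [e1, e2] at h
    simp only [ha, hb, Fin.cons_zero] at h
    linarith
  · intro m _ hm
    have hd : b m = a m + 1 := by
      obtain ⟨m', rfl⟩ := Fin.exists_succ_eq.2 hm
      simp [ha, hb]
    have e : ∀ y : Fin 3 → ℝ, F m (m.insertNth (b m) y) = F m (m.insertNth (a m) y) := by
      intro y
      have : (m.insertNth (b m) y : Fin 4 → ℝ) = m.insertNth (a m) y + Pi.single m 1 := by
        funext q
        refine Fin.succAboveCases m ?_ (fun q => ?_) q <;> simp [hd]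
      simp only [hF, this, hper]
    simp only [e, sub_self]

/-- fibre-average positivity on the complex line inside the fibre -/
private lemma average_pos (w : (Fin 4 → ℝ) → Matrix (Fin 4) (Fin 4) ℝ)
    (hw : ∀ i j, ContDiff ℝ ∞ fun x => w x i j) (t : ℝ) (u v : Fin 4 → ℝ)
    (hpos : ∀ y : Fin 3 → ℝ, 0 < u ⬝ᵥ (w (Fin.cons t y) *ᵥ v)) :
    0 < ∑ i, ∑ j, u i * v j * ∫ y in Icc (0 : Fin 3 → ℝ) 1, w (Fin.cons t y) i j := by
  have hc : ∀ i j, Continuous fun y : Fin 3 → ℝ => w (Fin.cons t y) i j := fun i j =>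
    (hw i j).continuous.comp (by fun_prop)
  have hi : ∀ i j, IntegrableOn (fun y : Fin 3 → ℝ => u i * v j * w (Fin.cons t y) i j) (Icc 0 1) :=
    fun i j => (((hc i j).const_mul _)).continuousOn.integrableOn_compact isCompact_Icc
  simp only [← integral_const_mul]
  rw [Finset.sum_congr rfl fun i _ => (integral_finsetSum _ fun j _ => hi i j).symm,
    ← integral_finsetSum _ fun i _ => integrable_finsetSum _ fun j _ => hi i j]
  simp only [← pair_expand]
  have hint : IntegrableOn (fun y : Fin 3 → ℝ => u ⬝ᵥ (w (Fin.cons t y) *ᵥ v)) (Icc 0 1) := by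
    simp only [pair_expand]
    exact integrable_finsetSum _ fun i _ => integrable_finsetSum _ fun j _ => hi i j
  rw [integral_pos_iff_support_of_nonneg (fun y => (hpos y).le) hint]
  have : Function.support (fun y : Fin 3 → ℝ => u ⬝ᵥ (w (Fin.cons t y) *ᵥ v)) = univ :=
    eq_univ_of_forall fun y => (hpos y).ne'
  rw [this, Measure.restrict_apply_univ, Real.volume_Icc_pi]
  simp

/-- A constant fibre form positive on the complex lines extends to a compatible form. -/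
private lemma algebraic_core (J : Matrix (Fin 4) (Fin 4) ℝ) (hJ : J * J = -1)
    (C : Matrix (Fin 4) (Fin 4) ℝ) (hC : ∀ i j, C j i = -C i j) (hC0 : ∀ j, C 0 j = 0)
    (hpos : ∀ v : Fin 4 → ℝ, v ≠ 0 → v 0 = 0 → (J *ᵥ v) 0 = 0 → 0 < v ⬝ᵥ (C *ᵥ (J *ᵥ v))) :
    let k : Fin 4 → ℝ := ![0, C 2 3, C 3 1, C 1 2]
    let a : Fin 4 → ℝ := Pi.single 0 1
    let b : Fin 4 → ℝ := fun q => J 0 q
    let j : ℝ := (J *ᵥ k) 0
    let L : Matrix (Fin 4) (Fin 4) ℝ :=
      1 - vecMulVec k (j⁻¹ • b) - vecMulVec (J *ᵥ k) (j⁻¹ • a)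
    let W : Matrix (Fin 4) (Fin 4) ℝ := Lᵀ * C * L + (vecMulVec b a - vecMulVec a b)
    j ≠ 0 ∧ Wᵀ = -W ∧ Jᵀ * W * J = W ∧
      (∀ v, v ≠ 0 → 0 < v ⬝ᵥ (W *ᵥ (J *ᵥ v))) ∧
      ∀ p q, p ≠ 0 → q ≠ 0 → W p q = C p q := by
  intro k a b j L W
  have hC' : ∀ q, C q q = 0 := fun q => by linarith [hC q q]
  have hCT : Cᵀ = -C := by ext p q; simp [hC p q]
  have hC0' : ∀ i, C i 0 = 0 := fun i => by rw [hC 0 i, hC0, neg_zero]
  have hCk : C *ᵥ k = 0 := by
    funext p
    fin_cases p <;>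
      simp [k, mulVec, dotProduct, Fin.sum_univ_four, hC0, hC', hC 1 2, hC 2 3, hC 3 1] <;> ring
  have hkC : ∀ x, k ⬝ᵥ (C *ᵥ x) = 0 := by
    intro x
    rw [dotProduct_mulVec, ← mulVec_transpose, hCT, neg_mulVec, hCk]
    simp
  have hk0 : k 0 = 0 := rfl
  have hk : k ≠ 0 := by
    intro h
    have h23 : C 2 3 = 0 := congrFun h 1
    have h31 : C 3 1 = 0 := congrFun h 2
    have h12 : C 1 2 = 0 := congrFun h 3
    have hz : C = 0 := by
      ext p q
      fin_cases p <;> fin_cases q <;>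
        simp [hC0, hC0', hC', h23, h31, h12, hC 2 3, hC 3 1, hC 1 2]
    obtain ⟨v, hv, hv0, hv1⟩ : ∃ v : Fin 4 → ℝ, v ≠ 0 ∧ v 0 = 0 ∧ (J *ᵥ v) 0 = 0 := by
      by_cases hb : J 0 1 = 0
      · exact ⟨![0, 1, 0, 0], fun h => by simpa using congrFun h 1, rfl,
          by simp [mulVec, dotProduct, Fin.sum_univ_four, hb]⟩
      · exact ⟨![0, J 0 2, -J 0 1, 0], fun h => hb (by simpa using congrFun h 2), rfl,
          by simp [mulVec, dotProduct, Fin.sum_univ_four]; ring⟩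
    have := hpos v hv hv0 hv1
    simp [hz] at this
  have hj : j ≠ 0 := by
    intro h
    have := hpos k hk hk0 h
    rw [hkC] at this
    exact lt_irrefl 0 this
  have hJJ : ∀ x, J *ᵥ (J *ᵥ x) = -x := fun x => by
    rw [mulVec_mulVec, hJ, neg_mulVec, one_mulVec]
  have hLx : ∀ x, L *ᵥ x = x - ((J *ᵥ x) 0 / j) • k - (x 0 / j) • (J *ᵥ k) := by
    intro x
    funext q
    simp only [L, sub_mulVec, one_mulVec, vecMulVec_mulVec, op_smul_eq_smul, smul_dotProduct,
      Pi.sub_apply, Pi.smul_apply, smul_eq_mul]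
    have e1 : b ⬝ᵥ x = (J *ᵥ x) 0 := rfl
    have e2 : a ⬝ᵥ x = x 0 := by simp [a]
    rw [e1, e2]; field_simp
  have hl0 : ∀ x, (L *ᵥ x) 0 = 0 := fun x => by
    rw [hLx]; simp only [Pi.sub_apply, Pi.smul_apply, smul_eq_mul, hk0]
    show x 0 - _ - x 0 / j * j = 0
    field_simp; ring
  have hlJ0 : ∀ x, (J *ᵥ (L *ᵥ x)) 0 = 0 := fun x => by
    rw [hLx, mulVec_sub, mulVec_sub, mulVec_smul, mulVec_smul, hJJ]
    simp only [Pi.sub_apply, Pi.smul_apply, smul_eq_mul, Pi.neg_apply, hk0]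
    show (J *ᵥ x) 0 - (J *ᵥ x) 0 / j * j - _ = 0
    field_simp; ring
  have hlJ : ∀ x, L *ᵥ (J *ᵥ x) = J *ᵥ (L *ᵥ x) := fun x => by
    rw [hLx, hLx, mulVec_sub, mulVec_sub, mulVec_smul, mulVec_smul, hJJ, hJJ]
    funext q
    simp only [Pi.sub_apply, Pi.smul_apply, smul_eq_mul, Pi.neg_apply]
    ring
  -- the Cramer relation on the complex line
  have cr : ∀ u v z : Fin 4 → ℝ, u 0 = 0 → v 0 = 0 → z 0 = 0 →
      (J *ᵥ u) 0 = 0 → (J *ᵥ v) 0 = 0 → (J *ᵥ z) 0 = 0 →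
      (u ⬝ᵥ (C *ᵥ z)) • v = (v ⬝ᵥ (C *ᵥ z)) • u + (u ⬝ᵥ (C *ᵥ v)) • z := by
    intro u v z hu hv hz nu nv nz
    have hjn : j = J 0 1 * C 2 3 + J 0 2 * C 3 1 + J 0 3 * C 1 2 := by
      simp [j, k, mulVec, dotProduct, Fin.sum_univ_four]
    simp only [mulVec, dotProduct, Fin.sum_univ_four, hu, hv, hz, mul_zero, zero_add] at nu nv nz
    funext q
    apply mul_left_cancel₀ hj
    simp only [Pi.smul_apply, Pi.add_apply, smul_eq_mul, pair_expand, Fin.sum_univ_four, hu, hv, hz,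
      hC', hC 1 2, hC 2 3, hC 3 1]
    have hq : q = 0 ∨ q = 1 ∨ q = 2 ∨ q = 3 := by omega
    rcases hq with rfl | rfl | rfl | rfl
    · simp [hu, hv, hz]
    · rw [hjn]
      linear_combination
        - C 2 3 * (C 2 3 * (v 2 * z 3 - v 3 * z 2) + C 3 1 * (v 3 * z 1 - v 1 * z 3) + C 1 2 * (v 1 * z 2 - v 2 * z 1)) * nu
        + C 2 3 * (C 2 3 * (u 2 * z 3 - u 3 * z 2) + C 3 1 * (u 3 * z 1 - u 1 * z 3) + C 1 2 * (u 1 * z 2 - u 2 * z 1)) * nv
        - C 2 3 * (C 2 3 * (u 2 * v 3 - u 3 * v 2) + C 3 1 * (u 3 * v 1 - u 1 * v 3) + C 1 2 * (u 1 * v 2 - u 2 * v 1)) * nz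
    · rw [hjn]
      linear_combination
        - C 3 1 * (C 2 3 * (v 2 * z 3 - v 3 * z 2) + C 3 1 * (v 3 * z 1 - v 1 * z 3) + C 1 2 * (v 1 * z 2 - v 2 * z 1)) * nu
        + C 3 1 * (C 2 3 * (u 2 * z 3 - u 3 * z 2) + C 3 1 * (u 3 * z 1 - u 1 * z 3) + C 1 2 * (u 1 * z 2 - u 2 * z 1)) * nv
        - C 3 1 * (C 2 3 * (u 2 * v 3 - u 3 * v 2) + C 3 1 * (u 3 * v 1 - u 1 * v 3) + C 1 2 * (u 1 * v 2 - u 2 * v 1)) * nz
    · rw [hjn]
      linear_combination
        - C 1 2 * (C 2 3 * (v 2 * z 3 - v 3 * z 2) + C 3 1 * (v 3 * z 1 - v 1 * z 3) + C 1 2 * (v 1 * z 2 - v 2 * z 1)) * nu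
        + C 1 2 * (C 2 3 * (u 2 * z 3 - u 3 * z 2) + C 3 1 * (u 3 * z 1 - u 1 * z 3) + C 1 2 * (u 1 * z 2 - u 2 * z 1)) * nv
        - C 1 2 * (C 2 3 * (u 2 * v 3 - u 3 * v 2) + C 3 1 * (u 3 * v 1 - u 1 * v 3) + C 1 2 * (u 1 * v 2 - u 2 * v 1)) * nz
  have inv : ∀ x y, (J *ᵥ (L *ᵥ x)) ⬝ᵥ (C *ᵥ (J *ᵥ (L *ᵥ y))) = (L *ᵥ x) ⬝ᵥ (C *ᵥ (L *ᵥ y)) := by
    intro x y
    set u := L *ᵥ x with hu
    set v := L *ᵥ y with hv
    rcases eq_or_ne u 0 with h | h
    · simp [h]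
    have hd := (hpos u h (hl0 x) (hlJ0 x)).ne'
    have e := cr u v (J *ᵥ u) (hl0 x) (hl0 y) (hlJ0 x) (hlJ0 x) (hlJ0 y)
      (by rw [hJJ, Pi.neg_apply, hu, hl0, neg_zero])
    have e' := congrArg (fun q => (J *ᵥ u) ⬝ᵥ (C *ᵥ (J *ᵥ q))) e
    simp only [mulVec_smul, mulVec_add, hJJ, mulVec_neg, dotProduct_smul, dotProduct_add,
      dotProduct_neg, smul_eq_mul] at e'
    have s1 : ∀ p q : Fin 4 → ℝ, p ⬝ᵥ (C *ᵥ q) = -(q ⬝ᵥ (C *ᵥ p)) := fun p q => by
      rw [dotProduct_mulVec, ← mulVec_transpose, hCT, neg_mulVec, neg_dotProduct, dotProduct_comm]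
    have s2 : (J *ᵥ u) ⬝ᵥ (C *ᵥ (J *ᵥ u)) = 0 := by linarith [s1 (J *ᵥ u) (J *ᵥ u)]
    rw [s2, mul_zero, zero_add, s1 (J *ᵥ u) u, neg_neg] at e'
    exact mul_left_cancel₀ hd (e'.trans (mul_comm _ _))
  have hW : ∀ x y, x ⬝ᵥ (W *ᵥ y) = (L *ᵥ x) ⬝ᵥ (C *ᵥ (L *ᵥ y))
      + ((J *ᵥ x) 0 * y 0 - x 0 * (J *ᵥ y) 0) := by
    intro x y
    simp only [W, add_mulVec, sub_mulVec, dotProduct_add, dotProduct_sub, ← mulVec_mulVec,
      dotProduct_mulVec x Lᵀ, vecMul_transpose, vecMulVec_mulVec, op_smul_eq_smul, dotProduct_smul,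
      smul_eq_mul]
    have e1 : ∀ z, b ⬝ᵥ z = (J *ᵥ z) 0 := fun z => rfl
    have e2 : ∀ z, a ⬝ᵥ z = z 0 := fun z => by simp [a]
    rw [dotProduct_comm x b, dotProduct_comm x a, e1, e1, e2, e2]
    ring
  refine ⟨hj, ?_, ?_, ?_, ?_⟩
  · simp only [W, transpose_add, transpose_sub, transpose_mul, transpose_transpose, hCT,
      transpose_vecMulVec, Matrix.neg_mul, Matrix.mul_neg, Matrix.mul_assoc]
    abel
  · apply Matrix.ext_iff_vecMul.2
    intro x
    apply dotProduct_eq _ _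
    intro y
    rw [← dotProduct_mulVec, ← dotProduct_mulVec, ← mulVec_mulVec, ← mulVec_mulVec,
      dotProduct_mulVec x Jᵀ, vecMul_transpose, hW, hW, hlJ, hlJ, inv, hJJ, hJJ]
    simp only [Pi.neg_apply]
    ring
  · intro v hv
    rw [hW, hlJ, hJJ]
    simp only [Pi.neg_apply]
    rcases eq_or_ne (L *ᵥ v) 0 with h | h
    · rw [h, zero_dotProduct]
      have : v 0 ≠ 0 ∨ (J *ᵥ v) 0 ≠ 0 := by
        by_contra hh; rw [not_or, not_not, not_not] at hh
        apply hv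
        rw [hLx, hh.1, hh.2] at h
        simpa using h
      rcases this with h' | h'
      · nlinarith [mul_self_pos.2 h', mul_self_nonneg ((J *ᵥ v) 0)]
      · nlinarith [mul_self_pos.2 h', mul_self_nonneg (v 0)]
    · nlinarith [hpos _ h (hl0 v) (hlJ0 v), mul_self_nonneg ((J *ᵥ v) 0), mul_self_nonneg (v 0)]
  · intro p q hp hq
    have h := hW (Pi.single p 1) (Pi.single q 1)
    have hs : (Pi.single p (1:ℝ) : Fin 4 → ℝ) 0 = 0 := Pi.single_eq_of_ne hp.symm _
    have ht : (Pi.single q (1:ℝ) : Fin 4 → ℝ) 0 = 0 := Pi.single_eq_of_ne hq.symm _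
    rw [hLx, hLx, hs, ht] at h
    simp only [zero_div, zero_smul, sub_zero, mulVec_sub, mulVec_smul, hCk, smul_zero,
      sub_dotProduct, smul_dotProduct, hkC, mul_zero, zero_mul, sub_self, add_zero] at h
    simpa using h

/-- Tamed implies compatible on `T⁴ = ℝ⁴/ℤ⁴` for structures depending on one coordinate. -/
theorem result (J : ℝ → Matrix (Fin 4) (Fin 4) ℝ)
    (hJs : ∀ i j, ContDiff ℝ ∞ fun t => J t i j) (hJ : ∀ t, J t * J t = -1)
    (hJper : ∀ t, J (t + 1) = J t)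
    (htamed : ∃ w : (Fin 4 → ℝ) → Matrix (Fin 4) (Fin 4) ℝ,
      (∀ i j, ContDiff ℝ ∞ fun x => w x i j) ∧ (∀ x i, w (x + Pi.single i 1) = w x) ∧
      (∀ x, (w x)ᵀ = -w x) ∧
      (∀ x i j k, fderiv ℝ (fun y => w y j k) x (Pi.single i 1)
        + fderiv ℝ (fun y => w y k i) x (Pi.single j 1)
        + fderiv ℝ (fun y => w y i j) x (Pi.single k 1) = 0) ∧
      ∀ x v, v ≠ 0 → 0 < v ⬝ᵥ (w x *ᵥ (J (x 0) *ᵥ v))) :
    ∃ W : (Fin 4 → ℝ) → Matrix (Fin 4) (Fin 4) ℝ,
      (∀ i j, ContDiff ℝ ∞ fun x => W x i j) ∧ (∀ x i, W (x + Pi.single i 1) = W x) ∧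
      (∀ x, (W x)ᵀ = -W x) ∧
      (∀ x i j k, fderiv ℝ (fun y => W y j k) x (Pi.single i 1)
        + fderiv ℝ (fun y => W y k i) x (Pi.single j 1)
        + fderiv ℝ (fun y => W y i j) x (Pi.single k 1) = 0) ∧
      (∀ x v, v ≠ 0 → 0 < v ⬝ᵥ (W x *ᵥ (J (x 0) *ᵥ v))) ∧
      ∀ x, (J (x 0))ᵀ * W x * J (x 0) = W x := by
  obtain ⟨w, hws, hwper, hwanti, hwcl, hwpos⟩ := htamed
  set C : Matrix (Fin 4) (Fin 4) ℝ := fun i j => if i = 0 ∨ j = 0 then 0 else
    ∫ y in Icc (0 : Fin 3 → ℝ) 1, w (Fin.cons 0 y) i j with hC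
  have hanti : ∀ x i j, w x j i = -w x i j := fun x i j => congrFun (congrFun (hwanti x) i) j
  have hCanti : ∀ i j, C j i = -C i j := by
    intro i j
    simp only [hC, or_comm (a := j = 0)]
    split_ifs
    · simp
    · rw [← integral_neg]
      exact integral_congr_ae (ae_of_all _ fun y => hanti _ i j)
  have hslice : ∀ t i j, i ≠ 0 → j ≠ 0 →
      (∫ y in Icc (0 : Fin 3 → ℝ) 1, w (Fin.cons t y) i j) = C i j := by
    intro t i j hi hj
    simp only [hC, hi, hj, or_self, if_false]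
    rcases eq_or_ne i j with rfl | hij
    · have : ∀ x, w x i i = 0 := fun x => by linarith [hanti x i i]
      simp [this]
    rcases le_total t 0 with h | h
    · exact (slice_const w hws hwcl hwper i j hi hj hij h).symm
    · exact slice_const w hws hwcl hwper i j hi hj hij h
  have hpos : ∀ t v, v ≠ 0 → v 0 = 0 → (J t *ᵥ v) 0 = 0 → 0 < v ⬝ᵥ (C *ᵥ (J t *ᵥ v)) := by
    intro t v hv hv0 hv1
    have h := average_pos w hws t v (J t *ᵥ v) fun y => by
      simpa using hwpos (Fin.cons t y) v hv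
    rw [pair_expand]
    refine lt_of_lt_of_eq h (Finset.sum_congr rfl fun i _ => Finset.sum_congr rfl fun j _ => ?_)
    by_cases hi : i = 0
    · simp [hi, hv0]
    by_cases hj : j = 0
    · simp [hj, hv1]
    rw [hslice t i j hi hj]
  have core := fun t => algebraic_core (J t) (hJ t) C hCanti (fun j => by simp [hC]) (hpos t)
  set k : Fin 4 → ℝ := ![0, C 2 3, C 3 1, C 1 2] with hk
  set a : Fin 4 → ℝ := Pi.single 0 1 with ha
  set b : ℝ → Fin 4 → ℝ := fun t q => J t 0 q with hb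
  set j : ℝ → ℝ := fun t => (J t *ᵥ k) 0 with hj
  set L : ℝ → Matrix (Fin 4) (Fin 4) ℝ := fun t =>
    1 - vecMulVec k ((j t)⁻¹ • b t) - vecMulVec (J t *ᵥ k) ((j t)⁻¹ • a) with hL
  set W₀ : ℝ → Matrix (Fin 4) (Fin 4) ℝ := fun t =>
    (L t)ᵀ * C * L t + (vecMulVec (b t) a - vecMulVec a (b t)) with hW₀
  have hjs : ContDiff ℝ ∞ j := by
    simp only [hj, mulVec, dotProduct]
    exact ContDiff.sum fun q _ => (hJs 0 q).mul contDiff_const
  have hji : ContDiff ℝ ∞ fun t => (j t)⁻¹ := hjs.inv fun t => (core t).1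
  have hLs : ∀ p q, ContDiff ℝ ∞ fun t => L t p q := by
    intro p q
    simp only [hL, hb, Matrix.sub_apply, vecMulVec_apply, Pi.smul_apply, smul_eq_mul, mulVec,
      dotProduct]
    exact (contDiff_const.sub (contDiff_const.mul (hji.mul (hJs 0 q)))).sub
      ((ContDiff.sum fun r _ => (hJs p r).mul contDiff_const).mul (hji.mul contDiff_const))
  have hWs : ∀ p q, ContDiff ℝ ∞ fun t => W₀ t p q := by
    intro p q
    simp only [hW₀, hb, Matrix.add_apply, Matrix.sub_apply, Matrix.mul_apply, vecMulVec_apply,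
      transpose_apply]
    exact (ContDiff.sum fun r _ => (ContDiff.sum fun r' _ => (hLs r' p).mul contDiff_const).mul
      (hLs r q)).add (((hJs 0 p).mul contDiff_const).sub (contDiff_const.mul (hJs 0 q)))
  refine ⟨fun x => W₀ (x 0), fun p q => (hWs p q).comp (contDiff_apply ℝ ℝ 0), ?_,
    fun x => (core (x 0)).2.1, ?_, fun x => (core (x 0)).2.2.2.1, fun x => (core (x 0)).2.2.1⟩
  · intro x i
    have : W₀ (x 0 + 1) = W₀ (x 0) := by simp only [hW₀, hL, hj, hb, hJper]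
    by_cases hi : i = 0
    · subst hi; simpa using this
    · simp [Pi.single_eq_of_ne (Ne.symm hi)]
  · intro x
    have hd : ∀ p q m, fderiv ℝ (fun y : Fin 4 → ℝ => W₀ (y 0) p q) x (Pi.single m 1) =
        (Pi.single m (1:ℝ) : Fin 4 → ℝ) 0 * deriv (fun t => W₀ t p q) (x 0) := by
      intro p q m
      have h1 : HasFDerivAt (fun y : Fin 4 → ℝ => y 0)
          (ContinuousLinearMap.proj (R := ℝ) (φ := fun _ : Fin 4 => ℝ) 0) x :=
        hasFDerivAt_apply 0 x
      have h2 := (((hWs p q).differentiable (by simp)) (x 0)).hasDerivAt.comp_hasFDerivAt x h1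
      rw [HasFDerivAt.fderiv (f := fun y : Fin 4 → ℝ => W₀ (y 0) p q) h2]
      simp [mul_comm]
    have hz : ∀ p q, p ≠ 0 → q ≠ 0 → deriv (fun t => W₀ t p q) (x 0) = 0 := by
      intro p q hp hq
      have : (fun t => W₀ t p q) = fun _ => C p q := funext fun t => (core t).2.2.2.2 p q hp hq
      rw [this, deriv_const]
    have ha' : ∀ p q, deriv (fun t => W₀ t q p) (x 0) = -deriv (fun t => W₀ t p q) (x 0) := by
      intro p q
      rw [← deriv.neg]
      exact congrArg (fun f => deriv f (x 0))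
        (funext fun t => congrFun (congrFun (core t).2.1 p) q)
    intro p q r
    simp only [hd]
    rcases eq_or_ne p 0 with hp | hp <;> rcases eq_or_ne q 0 with hq | hq <;>
      rcases eq_or_ne r 0 with hr | hr <;>
      simp only [hp, hq, hr, Pi.single_eq_same, Pi.single_eq_of_ne (Ne.symm _), ne_eq,
        not_false_eq_true, one_mul, zero_mul, add_zero, zero_add] <;>
      first
        | exact hz _ _ hq hr
        | exact hz _ _ hr hp
        | exact hz _ _ hp hq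
        | linarith [ha' 0 0]
        | linarith [ha' 0 r, ha' r 0]
        | linarith [ha' 0 p, ha' p 0]
        | linarith [ha' 0 q, ha' q 0]
        | simp

end Vale.Agent.Results.P204.OneCoordinateTorus
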